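import Claimed.Agent.R322.Pack012

/-!
# Gluing half of AE Proposition 7.3: mean curvature and its normal derivative depend Lipschitz-continuously on the 3-jet

Owner: helper79 (package BP-Fit-glue).  Paper-free: only the definitions `HS`, `DHS`, `DHSsq` of `Tube/Defs.lean` and the smoothness lemmas of
`Tube/Geom/Reg.lean` (`contDiff_PhA`, `contDiff_gmatA_inverse`, `norm_D2_eq`, `norm_D3_apply_le`, `hasFDerivAt_Du`).

PLAN of `jet_lip` (leaf `L-Fit-Glue-jetA`).  Put, for `A : E m →L E n`, `S : E m →L E m →L E n`,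
  `Hj A S = (1 - PhA A) (inV (∑_a S ((gmat A).inverse e_a) e_a))`;   `HS u y = Hj (Du y) (D²u y)` by definition (`rfl` after unfolding).
`Hj` is `C^∞` in `(A,S)` (linear in `S`).  Chain rule: `fderiv (HS u) y a = fderiv Hj (A,S) (D²u y a, D³u y a)`, `D³u y = fderiv (D2 u) y`, so
  `DHS u y a = Dj (A,S,T) a`,  `Dj (A,S,T) a = (1 - PhA A) (fderiv Hj (A,S) (S a, T a))`,
again `C^∞` in `(A,S,T)`.  A `C¹` map on a finite dimensional normed space is Lipschitz on the closed unit ball (convex, compact: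
`IsCompact.exists_bound_of_continuousOn` for `‖fderiv‖`, `Convex.norm_image_sub_le_of_norm_fderiv_le`).  Finally
`‖Du y - Df y‖ = ‖iteratedFDeriv 1 (u - f) y‖`, `‖D²u y - D²f y‖ = ‖iteratedFDeriv 2 (u - f) y‖` (`norm_D2_eq` for `u - f`, `fderiv_sub`), same for order 3.

PLAN of `dhs_sq_bounds` (leaf `L-Fit-Glue-jetB`).  `D = DHS u y` is linear in `a`; `DHSsq u y = ∑_a ⟨D (g⁻¹ e_a), D e_a⟩ = tr (Dᵀ D g⁻¹)`, `g = 1 + AᵀA` symmetric,
`1 ≤ g ≤ 1 + ‖A‖² ≤ 2`.  In an orthonormal eigenbasis `v_i` of `g` (`LinearMap.IsSymmetric.eigenvectorBasis`; the trace does not depend on the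
orthonormal basis: `LinearMap.trace_eq_sum_inner`) `tr (DᵀD g⁻¹) = ∑_i λ_i⁻¹ ‖D v_i‖²` and `∑_i ‖D v_i‖² = ∑_a ‖D e_a‖²`.
-/

set_option autoImplicit false

open scoped ContDiff Topology

namespace Claimed.Agent.R322.Fit.Glue

open Claimed.Agent.R322.Tube

variable {m n : ℕ}

/-- distance of the jets of the orders `1, 2, 3` -/
noncomputable def jd (u f : E m → E n) (y : E m) : ℝ :=
  ‖iteratedFDeriv ℝ 1 (u - f) y‖ + ‖iteratedFDeriv ℝ 2 (u - f) y‖ + ‖iteratedFDeriv ℝ 3 (u - f) y‖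

/-- derivatives of the orders `1, 2, 3` bounded by `1` -/
def JetLe (u : E m → E n) (y : E m) : Prop :=
  ∀ i : ℕ, 1 ≤ i → i ≤ 3 → ‖iteratedFDeriv ℝ i u y‖ ≤ 1

theorem jd_nonneg (u f : E m → E n) (y : E m) : 0 ≤ jd u f y := by unfold jd; positivity

/-- a `C¹` map on a finite dimensional space is Lipschitz on the closed unit ball -/
theorem glj_lip_ball {V W : Type*} [NormedAddCommGroup V] [NormedSpace ℝ V] [FiniteDimensional ℝ V]
    [NormedAddCommGroup W] [NormedSpace ℝ W] (Φ : V → W) (hΦ : ContDiff ℝ 1 Φ) :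
    ∃ C : ℝ, 0 ≤ C ∧ ∀ p q : V, ‖p‖ ≤ 1 → ‖q‖ ≤ 1 → ‖Φ p - Φ q‖ ≤ C * ‖p - q‖ := by
  have : ProperSpace V := FiniteDimensional.proper_real V
  obtain ⟨C, hC⟩ := (isCompact_closedBall (0 : V) 1).exists_bound_of_continuousOn
    (hΦ.continuous_fderiv one_ne_zero).continuousOn
  refine ⟨max C 0, le_max_right _ _, fun p q hp hq => ?_⟩
  exact (convex_closedBall (0 : V) 1).norm_image_sub_le_of_norm_fderiv_le
    (fun x _ => hΦ.differentiable one_ne_zero x) (fun x hx => (hC x hx).trans (le_max_left _ _))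
    (mem_closedBall_zero_iff.2 hq) (mem_closedBall_zero_iff.2 hp)

section abs

variable {X V G : Type*} [NormedAddCommGroup X] [NormedSpace ℝ X]
  [NormedAddCommGroup V] [NormedSpace ℝ V] [NormedAddCommGroup G] [NormedSpace ℝ G]

/-- smooth dependence of the derivative along a jet -/
theorem glj_abs_contDiff (H : V × (X →L[ℝ] V) → G) (hH : ContDiff ℝ 2 H) (Pj : V → G →L[ℝ] G)
    (hP : ContDiff ℝ 1 Pj) :
    ContDiff ℝ 1 (fun p : V × (X →L[ℝ] V) × (X →L[ℝ] X →L[ℝ] V) =>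
      Pj p.1 ∘L (fderiv ℝ H (p.1, p.2.1) ∘L
        (ContinuousLinearMap.inl ℝ V (X →L[ℝ] V) ∘L p.2.1
          + ContinuousLinearMap.inr ℝ V (X →L[ℝ] V) ∘L p.2.2))) := by
  refine ContDiff.clm_comp (hP.comp contDiff_fst) ?_
  refine ContDiff.clm_comp ?_ ?_
  · have h1 : ContDiff ℝ 1 (fderiv ℝ H) := hH.fderiv_right (by norm_num)
    exact h1.comp (contDiff_fst.prodMk (contDiff_fst.comp contDiff_snd))
  · exact (contDiff_const.clm_comp (contDiff_fst.comp contDiff_snd)).add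
      (contDiff_const.clm_comp (contDiff_snd.comp contDiff_snd))

/-- abstract Lipschitz dependence on the jet -/
theorem glj_abs_lip [FiniteDimensional ℝ X] [FiniteDimensional ℝ V]
    (H : V × (X →L[ℝ] V) → G) (hH : ContDiff ℝ 2 H) (Pj : V → G →L[ℝ] G) (hP : ContDiff ℝ 1 Pj) :
    ∃ C : ℝ, 0 ≤ C ∧ ∀ (A A' : V) (S S' : X →L[ℝ] V) (T T' : X →L[ℝ] X →L[ℝ] V),
      ‖A‖ ≤ 1 → ‖A'‖ ≤ 1 → ‖S‖ ≤ 1 → ‖S'‖ ≤ 1 → ‖T‖ ≤ 1 → ‖T'‖ ≤ 1 →
      ‖H (A, S) - H (A', S')‖ ≤ C * (‖A - A'‖ + ‖S - S'‖ + ‖T - T'‖) ∧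
      ∀ a : X, ‖Pj A (fderiv ℝ H (A, S) (S a, T a)) - Pj A' (fderiv ℝ H (A', S') (S' a, T' a))‖
        ≤ C * (‖A - A'‖ + ‖S - S'‖ + ‖T - T'‖) * ‖a‖ := by
  obtain ⟨C1, hC1, h1⟩ := glj_lip_ball H (hH.of_le (by norm_num))
  obtain ⟨C2, hC2, h2⟩ := glj_lip_ball _ (glj_abs_contDiff H hH Pj hP)
  refine ⟨C1 + C2, by positivity, fun A A' S S' T T' hA hA' hS hS' hT hT' => ?_⟩
  have n1 := norm_nonneg (A - A')
  have n2 := norm_nonneg (S - S')
  have n3 := norm_nonneg (T - T')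
  constructor
  · have hp : ‖(A, S)‖ ≤ 1 := by
      rw [Prod.norm_def]; exact max_le hA hS
    have hq : ‖(A', S')‖ ≤ 1 := by
      rw [Prod.norm_def]; exact max_le hA' hS'
    have h3 := h1 _ _ hp hq
    have h4 : ‖(A, S) - (A', S')‖ ≤ ‖A - A'‖ + ‖S - S'‖ + ‖T - T'‖ := by
      rw [Prod.mk_sub_mk, Prod.norm_def]
      exact max_le (by linarith) (by linarith)
    calc _ ≤ C1 * ‖(A, S) - (A', S')‖ := h3
      _ ≤ C1 * (‖A - A'‖ + ‖S - S'‖ + ‖T - T'‖) := mul_le_mul_of_nonneg_left h4 hC1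
      _ ≤ (C1 + C2) * (‖A - A'‖ + ‖S - S'‖ + ‖T - T'‖) :=
          mul_le_mul_of_nonneg_right (by linarith) (by positivity)
  · intro a
    have hp : ‖(A, S, T)‖ ≤ 1 := by
      rw [Prod.norm_def, Prod.norm_def]; exact max_le hA (max_le hS hT)
    have hq : ‖(A', S', T')‖ ≤ 1 := by
      rw [Prod.norm_def, Prod.norm_def]; exact max_le hA' (max_le hS' hT')
    have h3 := h2 _ _ hp hq
    have h4 : ‖(A, S, T) - (A', S', T')‖ ≤ ‖A - A'‖ + ‖S - S'‖ + ‖T - T'‖ := by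
      rw [Prod.mk_sub_mk, Prod.mk_sub_mk, Prod.norm_def, Prod.norm_def]
      exact max_le (by linarith) (max_le (by linarith) (by linarith))
    have e : ∀ (A : V) (S : X →L[ℝ] V) (T : X →L[ℝ] X →L[ℝ] V),
        Pj A (fderiv ℝ H (A, S) (S a, T a))
          = (Pj A ∘L (fderiv ℝ H (A, S) ∘L (ContinuousLinearMap.inl ℝ V (X →L[ℝ] V) ∘L S
              + ContinuousLinearMap.inr ℝ V (X →L[ℝ] V) ∘L T))) a := by
      intro A S T
      show _ = Pj A (fderiv ℝ H (A, S) ((S a, 0) + (0, T a)))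
      rw [Prod.mk_add_mk, add_zero, zero_add]
    rw [e A S T, e A' S' T', ← sub_apply]
    refine (ContinuousLinearMap.le_opNorm _ a).trans (mul_le_mul_of_nonneg_right ?_ (norm_nonneg a))
    calc _ ≤ C2 * ‖(A, S, T) - (A', S', T')‖ := h3
      _ ≤ C2 * (‖A - A'‖ + ‖S - S'‖ + ‖T - T'‖) := mul_le_mul_of_nonneg_left h4 hC2
      _ ≤ (C1 + C2) * (‖A - A'‖ + ‖S - S'‖ + ‖T - T'‖) :=
          mul_le_mul_of_nonneg_right (by linarith) (by positivity)

/-- abstract chain rule along a jet -/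
theorem glj_abs_chain (H : V × (X →L[ℝ] V) → G) (hH : ContDiff ℝ 2 H) (α : X → V) (hα : ContDiff ℝ 2 α)
    (y a : X) :
    fderiv ℝ (fun y => H (α y, fderiv ℝ α y)) y a
      = fderiv ℝ H (α y, fderiv ℝ α y) (fderiv ℝ α y a, fderiv ℝ (fderiv ℝ α) y a) := by
  have hα1 : ContDiff ℝ 1 (fderiv ℝ α) := hα.fderiv_right (by norm_num)
  have h1 : HasFDerivAt (fun y => (α y, fderiv ℝ α y)) ((fderiv ℝ α y).prod (fderiv ℝ (fderiv ℝ α) y)) y :=
    (hα.differentiable two_ne_zero y).hasFDerivAt.prodMk (hα1.differentiable one_ne_zero y).hasFDerivAt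
  have h2 : HasFDerivAt H (fderiv ℝ H (α y, fderiv ℝ α y)) (α y, fderiv ℝ α y) :=
    (hH.differentiable two_ne_zero _).hasFDerivAt
  have h3 := h2.comp y h1
  have e : (fun y => H (α y, fderiv ℝ α y)) = H ∘ fun y => (α y, fderiv ℝ α y) := rfl
  rw [e, h3.fderiv]
  rfl

set_option maxSynthPendingDepth 4 in
/-- jets of a difference -/
theorem glj_abs_sub (u f : X → V) (hu : ContDiff ℝ 3 u) (hf : ContDiff ℝ 3 f) (y : X) :
    ‖fderiv ℝ u y - fderiv ℝ f y‖ = ‖iteratedFDeriv ℝ 1 (u - f) y‖ ∧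
    ‖fderiv ℝ (fderiv ℝ u) y - fderiv ℝ (fderiv ℝ f) y‖ = ‖iteratedFDeriv ℝ 2 (u - f) y‖ ∧
    ‖fderiv ℝ (fderiv ℝ (fderiv ℝ u)) y - fderiv ℝ (fderiv ℝ (fderiv ℝ f)) y‖
      = ‖iteratedFDeriv ℝ 3 (u - f) y‖ := by
  have hu1 : ContDiff ℝ 2 (fderiv ℝ u) := hu.fderiv_right (by norm_num)
  have hf1 : ContDiff ℝ 2 (fderiv ℝ f) := hf.fderiv_right (by norm_num)
  have hu2 : ContDiff ℝ 1 (fderiv ℝ (fderiv ℝ u)) := hu1.fderiv_right (by norm_num)
  have hf2 : ContDiff ℝ 1 (fderiv ℝ (fderiv ℝ f)) := hf1.fderiv_right (by norm_num)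
  have e1 : fderiv ℝ (u - f) = fderiv ℝ u - fderiv ℝ f := by
    funext z
    exact fderiv_sub (hu.differentiable (by norm_num) z) (hf.differentiable (by norm_num) z)
  have e2 : fderiv ℝ (fderiv ℝ (u - f)) = fderiv ℝ (fderiv ℝ u) - fderiv ℝ (fderiv ℝ f) := by
    rw [e1]
    funext z
    exact fderiv_sub (hu1.differentiable two_ne_zero z) (hf1.differentiable two_ne_zero z)
  have e3 : fderiv ℝ (fderiv ℝ (fderiv ℝ (u - f)))
      = fderiv ℝ (fderiv ℝ (fderiv ℝ u)) - fderiv ℝ (fderiv ℝ (fderiv ℝ f)) := by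
    rw [e2]
    funext z
    exact fderiv_sub (hu2.differentiable one_ne_zero z) (hf2.differentiable one_ne_zero z)
  refine ⟨?_, ?_, ?_⟩
  · rw [norm_iteratedFDeriv_one, e1]; rfl
  · rw [← norm_iteratedFDeriv_fderiv, norm_iteratedFDeriv_one, e2]; rfl
  · rw [← norm_iteratedFDeriv_fderiv, ← norm_iteratedFDeriv_fderiv, norm_iteratedFDeriv_one, e3]; rfl

set_option maxSynthPendingDepth 4 in
/-- norms of the jets -/
theorem glj_abs_norm (u : X → V) (y : X) :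
    ‖fderiv ℝ u y‖ = ‖iteratedFDeriv ℝ 1 u y‖ ∧
    ‖fderiv ℝ (fderiv ℝ u) y‖ = ‖iteratedFDeriv ℝ 2 u y‖ ∧
    ‖fderiv ℝ (fderiv ℝ (fderiv ℝ u)) y‖ = ‖iteratedFDeriv ℝ 3 u y‖ := by
  refine ⟨?_, ?_, ?_⟩
  · rw [norm_iteratedFDeriv_one]
  · rw [← norm_iteratedFDeriv_fderiv, norm_iteratedFDeriv_one]
  · rw [← norm_iteratedFDeriv_fderiv, ← norm_iteratedFDeriv_fderiv, norm_iteratedFDeriv_one]

end abs

/-- the mean curvature as a function of the 2-jet -/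
noncomputable def gljH (m n : ℕ) (p : (E m →L[ℝ] E n) × (E m →L[ℝ] E m →L[ℝ] E n)) : E (m + n) :=
  ∑ a : Fin m, (ContinuousLinearMap.id ℝ (E (m + n)) - PhA p.1)
    (inV m n (p.2 ((gmat p.1).inverse (EuclideanSpace.single a 1)) (EuclideanSpace.single a 1)))

theorem gljH_eqns_cite : True := by have := @gljH.eq_1; trivial

theorem gljH_contDiff {k : ℕ∞ω} : ContDiff ℝ k (gljH m n) := by
  unfold gljH
  refine ContDiff.sum fun a _ => ?_
  refine ContDiff.clm_apply (contDiff_const.sub (contDiff_PhA.comp contDiff_fst)) ?_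
  refine (inV m n).contDiff.comp ?_
  refine ContDiff.clm_apply (ContDiff.clm_apply contDiff_snd ?_) contDiff_const
  exact ContDiff.clm_apply (contDiff_gmatA_inverse.comp contDiff_fst) contDiff_const

set_option maxSynthPendingDepth 4 in
/-- the normal derivative of the mean curvature in terms of the 3-jet -/
theorem glj_DHS_eq {v : E m → E n} (hv : ContDiff ℝ 3 v) (y a : E m) :
    DHS v y a = (ContinuousLinearMap.id ℝ (E (m + n)) - PhA (fderiv ℝ v y))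
      (fderiv ℝ (gljH m n) (fderiv ℝ v y, fderiv ℝ (fderiv ℝ v) y)
        (fderiv ℝ (fderiv ℝ v) y a, fderiv ℝ (fderiv ℝ (fderiv ℝ v)) y a)) := by
  have h := glj_abs_chain (gljH m n) gljH_contDiff (fderiv ℝ v) (hv.fderiv_right (by norm_num)) y a
  rw [← h]
  rfl

set_option maxSynthPendingDepth 4 in
/-- leaf `L-Fit-Glue-jetA` -/
theorem jet_lip (m n : ℕ) : ∃ C : ℝ, 0 ≤ C ∧ ∀ (u f : E m → E n) (y : E m), ContDiff ℝ 3 u → ContDiff ℝ 3 f →
    JetLe u y → JetLe f y →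
    ‖HS u y - HS f y‖ ≤ C * jd u f y ∧ ∀ a : E m, ‖DHS u y a - DHS f y a‖ ≤ C * jd u f y * ‖a‖ := by
  obtain ⟨C, hC, h⟩ := glj_abs_lip (X := E m) (V := E m →L[ℝ] E n) (gljH m n) gljH_contDiff
    (fun A => ContinuousLinearMap.id ℝ (E (m + n)) - PhA A) (contDiff_const.sub contDiff_PhA)
  refine ⟨C, hC, fun u f y hu hf hju hjf => ?_⟩
  obtain ⟨nu1, nu2, nu3⟩ := glj_abs_norm u y
  obtain ⟨nf1, nf2, nf3⟩ := glj_abs_norm f y
  obtain ⟨d1, d2, d3⟩ := glj_abs_sub u f hu hf y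
  have h1 := h (fderiv ℝ u y) (fderiv ℝ f y) (fderiv ℝ (fderiv ℝ u) y) (fderiv ℝ (fderiv ℝ f) y)
    (fderiv ℝ (fderiv ℝ (fderiv ℝ u)) y) (fderiv ℝ (fderiv ℝ (fderiv ℝ f)) y)
    (by rw [nu1]; exact hju 1 le_rfl (by norm_num)) (by rw [nf1]; exact hjf 1 le_rfl (by norm_num))
    (by rw [nu2]; exact hju 2 (by norm_num) (by norm_num)) (by rw [nf2]; exact hjf 2 (by norm_num) (by norm_num))
    (by rw [nu3]; exact hju 3 (by norm_num) le_rfl) (by rw [nf3]; exact hjf 3 (by norm_num) le_rfl)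
  rw [d1, d2, d3] at h1
  refine ⟨h1.1, fun a => ?_⟩
  rw [glj_DHS_eq hu, glj_DHS_eq hf]
  exact h1.2 a

/-- `⟨g⁻¹ v, v⟩ ≤ |v|²` -/
theorem glj_ginv_le (A : E m →L[ℝ] E n) (v : E m) : inner ℝ ((gmat A).inverse v) v ≤ ‖v‖ ^ 2 := by
  calc _ ≤ ‖(gmat A).inverse v‖ * ‖v‖ := real_inner_le_norm _ _
    _ ≤ ‖v‖ * ‖v‖ := mul_le_mul_of_nonneg_right (norm_gmat_inverse_apply_le A v) (norm_nonneg _)
    _ = ‖v‖ ^ 2 := by ring

/-- `|g w|² ≤ 2 ⟨w, g w⟩` if `|A| ≤ 1` -/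
theorem glj_gmat_sq_le (A : E m →L[ℝ] E n) (hA : ‖A‖ ≤ 1) (w : E m) :
    1 / 2 * ‖gmat A w‖ ^ 2 ≤ inner ℝ w (gmat A w) := by
  have e1 : gmat A w = w + ContinuousLinearMap.adjoint A (A w) := rfl
  have e2 : inner ℝ w (ContinuousLinearMap.adjoint A (A w)) = ‖A w‖ ^ 2 := by
    rw [ContinuousLinearMap.adjoint_inner_right, real_inner_self_eq_norm_sq]
  have h1 : ‖A w‖ ≤ ‖w‖ := by
    calc ‖A w‖ ≤ ‖A‖ * ‖w‖ := A.le_opNorm w
      _ ≤ 1 * ‖w‖ := mul_le_mul_of_nonneg_right hA (norm_nonneg _)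
      _ = ‖w‖ := one_mul _
  have h2 : ‖ContinuousLinearMap.adjoint A (A w)‖ ≤ ‖A w‖ := by
    calc ‖ContinuousLinearMap.adjoint A (A w)‖ ≤ ‖ContinuousLinearMap.adjoint A‖ * ‖A w‖ :=
          (ContinuousLinearMap.adjoint A).le_opNorm _
      _ = ‖A‖ * ‖A w‖ := by rw [LinearIsometryEquiv.norm_map]
      _ ≤ 1 * ‖A w‖ := mul_le_mul_of_nonneg_right hA (norm_nonneg _)
      _ = ‖A w‖ := one_mul _
  rw [e1, norm_add_sq_real, inner_add_right, e2, real_inner_self_eq_norm_sq]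
  have h3 := norm_nonneg (A w)
  have h4 := norm_nonneg (ContinuousLinearMap.adjoint A (A w))
  nlinarith

/-- `|v|² / 2 ≤ ⟨g⁻¹ v, v⟩` if `|A| ≤ 1` -/
theorem glj_ginv_ge (A : E m →L[ℝ] E n) (hA : ‖A‖ ≤ 1) (v : E m) :
    1 / 2 * ‖v‖ ^ 2 ≤ inner ℝ ((gmat A).inverse v) v := by
  have h := glj_gmat_sq_le A hA ((gmat A).inverse v)
  rwa [gmat_apply_inverse] at h

/-- cyclicity of the trace, written with the standard bases -/
theorem glj_trace_swap {N : ℕ} (D : E m →L[ℝ] E N) (h : E m →L[ℝ] E m)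
    (hsymm : ∀ v w, inner ℝ (h v) w = inner ℝ v (h w)) :
    ∑ a : Fin m, inner ℝ (D (h (EuclideanSpace.single a 1))) (D (EuclideanSpace.single a 1))
      = ∑ α : Fin N, inner ℝ (h (ContinuousLinearMap.adjoint D (EuclideanSpace.single α 1)))
          (ContinuousLinearMap.adjoint D (EuclideanSpace.single α 1)) := by
  have hb : ∀ (k : ℕ) (a : Fin k), (EuclideanSpace.single a 1 : E k) = EuclideanSpace.basisFun (Fin k) ℝ a :=
    fun k a => (EuclideanSpace.basisFun_apply (Fin k) ℝ a).symm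
  have h1 : ∀ a : Fin m, inner ℝ (D (h (EuclideanSpace.single a 1))) (D (EuclideanSpace.single a 1))
      = ∑ α : Fin N, inner ℝ (ContinuousLinearMap.adjoint D (EuclideanSpace.single α 1)) (EuclideanSpace.single a 1)
          * inner ℝ (EuclideanSpace.single a 1) (h (ContinuousLinearMap.adjoint D (EuclideanSpace.single α 1))) := by
    intro a
    rw [← (EuclideanSpace.basisFun (Fin N) ℝ).sum_inner_mul_inner]
    refine Finset.sum_congr rfl fun α _ => ?_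
    rw [← hb N α, ← ContinuousLinearMap.adjoint_inner_right D, hsymm,
      ← ContinuousLinearMap.adjoint_inner_left D, mul_comm]
  simp only [h1]
  rw [Finset.sum_comm]
  refine Finset.sum_congr rfl fun α _ => ?_
  simp only [hb m]
  rw [(EuclideanSpace.basisFun (Fin m) ℝ).sum_inner_mul_inner, real_inner_comm]

/-- leaf `L-Fit-Glue-jetB` -/
theorem dhs_sq_bounds (u : E m → E n) (y : E m) (hs : ‖fderiv ℝ u y‖ ≤ 1) :
    1 / 2 * ∑ a : Fin m, ‖DHS u y (EuclideanSpace.single a 1)‖ ^ 2 ≤ DHSsq u y ∧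
      DHSsq u y ≤ ∑ a : Fin m, ‖DHS u y (EuclideanSpace.single a 1)‖ ^ 2 := by
  set D : E m →L[ℝ] E (m + n) := Pv u y ∘L fderiv ℝ (HS u) y with hD
  set A := fderiv ℝ u y with hA
  have e1 : DHSsq u y = ∑ α : Fin (m + n),
      inner ℝ ((gmat A).inverse (ContinuousLinearMap.adjoint D (EuclideanSpace.single α 1)))
        (ContinuousLinearMap.adjoint D (EuclideanSpace.single α 1)) :=
    glj_trace_swap D (gmat A).inverse (gmat_inverse_symm A)
  have e2 : ∑ a : Fin m, ‖DHS u y (EuclideanSpace.single a 1)‖ ^ 2 = ∑ α : Fin (m + n),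
      ‖ContinuousLinearMap.adjoint D (EuclideanSpace.single α 1)‖ ^ 2 := by
    have h := glj_trace_swap D (ContinuousLinearMap.id ℝ (E m)) (fun _ _ => rfl)
    simp only [ContinuousLinearMap.id_apply, real_inner_self_eq_norm_sq] at h
    exact h
  rw [e1, e2, Finset.mul_sum]
  exact ⟨Finset.sum_le_sum fun α _ => glj_ginv_ge A hs _, Finset.sum_le_sum fun α _ => glj_ginv_le A _⟩

/-- **curvature comparison** (glue) -/
theorem jet_curv (m n : ℕ) : ∃ C : ℝ, 0 ≤ C ∧ ∀ (u f : E m → E n) (y : E m), ContDiff ℝ 3 u → ContDiff ℝ 3 f →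
    JetLe u y → JetLe f y →
    ‖HS u y‖ + Real.sqrt (DHSsq u y) ≤ 2 * (‖HS f y‖ + Real.sqrt (DHSsq f y)) + C * jd u f y := by
  obtain ⟨C, hC, h⟩ := jet_lip m n
  refine ⟨C + Real.sqrt (2 * m) * C, by positivity, fun u f y hu hf hju hjf => ?_⟩
  obtain ⟨h1, h2⟩ := h u f y hu hf hju hjf
  have hd := jd_nonneg u f y
  set ε := C * jd u f y with hε
  have hε0 : 0 ≤ ε := by positivity
  have su : ‖fderiv ℝ u y‖ ≤ 1 := by
    rw [← norm_iteratedFDeriv_one]; exact hju 1 le_rfl (by norm_num)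
  have sf : ‖fderiv ℝ f y‖ ≤ 1 := by
    rw [← norm_iteratedFDeriv_one]; exact hjf 1 le_rfl (by norm_num)
  obtain ⟨-, bu⟩ := dhs_sq_bounds u y su
  obtain ⟨bf, -⟩ := dhs_sq_bounds f y sf
  set Nf := ∑ a : Fin m, ‖DHS f y (EuclideanSpace.single a 1)‖ ^ 2 with hNf
  have hNf0 : 0 ≤ Nf := Finset.sum_nonneg fun a _ => by positivity
  have hterm : ∀ a : Fin m, ‖DHS u y (EuclideanSpace.single a 1)‖ ^ 2
      ≤ 2 * ‖DHS f y (EuclideanSpace.single a 1)‖ ^ 2 + 2 * ε ^ 2 := by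
    intro a
    have h3 := h2 (EuclideanSpace.single a 1)
    rw [EuclideanSpace.norm_single, norm_one, mul_one] at h3
    have h4 : ‖DHS u y (EuclideanSpace.single a 1)‖
        ≤ ‖DHS f y (EuclideanSpace.single a 1)‖ + ε := by
      have := norm_sub_norm_le (DHS u y (EuclideanSpace.single a 1))
        (DHS f y (EuclideanSpace.single a 1))
      linarith
    have h5 := norm_nonneg (DHS u y (EuclideanSpace.single a 1))
    have h6 := norm_nonneg (DHS f y (EuclideanSpace.single a 1))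
    nlinarith [sq_nonneg (‖DHS f y (EuclideanSpace.single a 1)‖ - ε)]
  have hsum : DHSsq u y ≤ 2 * Nf + 2 * m * ε ^ 2 := by
    refine bu.trans ((Finset.sum_le_sum fun a _ => hterm a).trans (le_of_eq ?_))
    rw [Finset.sum_add_distrib, ← Finset.mul_sum, Finset.sum_const, Finset.card_univ,
      Fintype.card_fin, nsmul_eq_mul]
    ring
  have hNf2 : Nf ≤ 2 * DHSsq f y := by linarith
  have hDf0 : 0 ≤ DHSsq f y := by linarith
  have hs1 : Real.sqrt (DHSsq u y) ≤ 2 * Real.sqrt (DHSsq f y) + Real.sqrt (2 * m) * ε := by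
    have e1 : DHSsq u y ≤ (2 * Real.sqrt (DHSsq f y) + Real.sqrt (2 * m) * ε) ^ 2 := by
      have q1 : Real.sqrt (DHSsq f y) ^ 2 = DHSsq f y := Real.sq_sqrt hDf0
      have q2 : Real.sqrt (2 * m) ^ 2 = 2 * m := Real.sq_sqrt (by positivity)
      have q3 : 0 ≤ Real.sqrt (DHSsq f y) * (Real.sqrt (2 * m) * ε) := by positivity
      calc DHSsq u y ≤ 2 * Nf + 2 * m * ε ^ 2 := hsum
        _ ≤ 4 * DHSsq f y + 2 * m * ε ^ 2 := by linarith
        _ = 4 * Real.sqrt (DHSsq f y) ^ 2 + Real.sqrt (2 * m) ^ 2 * ε ^ 2 := by rw [q1, q2]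
        _ ≤ _ := by nlinarith
    exact Real.sqrt_le_iff.2 ⟨by positivity, e1⟩
  have hs2 : ‖HS u y‖ ≤ ‖HS f y‖ + ε := by
    have := norm_sub_norm_le (HS u y) (HS f y)
    linarith
  have hHf := norm_nonneg (HS f y)
  calc _ ≤ (‖HS f y‖ + ε) + (2 * Real.sqrt (DHSsq f y) + Real.sqrt (2 * m) * ε) := add_le_add hs2 hs1
    _ ≤ 2 * (‖HS f y‖ + Real.sqrt (DHSsq f y)) + (C + Real.sqrt (2 * m) * C) * jd u f y := by
        rw [hε]; nlinarith

end Claimed.Agent.R322.Fit.Glue
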