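import Claimed.Agent.R322.Pack059
import Claimed.Agent.R322.Pack045
import Claimed.Agent.R322.Pack043

/-!
# Gluing half of AE Proposition 7.3: the normal cylinder over the glued centre

Owner: helper79 (package BP-Fit-glue).

Part 1 (`CylIn`): `W` good, `u` a small global graph function (`Geo 1 u`, `|u| ≤ hc/8`), `eg ≤ hc/8`, `hc ≤ 1/10`.  Then the normal cylinder
`Cyl u (ball 0 4) hc` is an interior normal cylinder (`CylIn.mkN`), it contains all support over `B_{7/2}`, and on the support it is comparable with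
the flat working region `Wk`.  Everything follows from `npr_isMin`: `|zz u X| ≤ |X - F(prH X)| = |prV X - u (prH X)|`, `|npr u X - prH X| ≤ |zz u X|`.

Part 2 (`GlOK`): `u` is the glued centre of a family of fits: heights CO (4.4) and the cell-wise first moment.
-/

set_option autoImplicit false

open scoped ContDiff Topology ENNReal
open MeasureTheory

namespace Claimed.Agent.R322.Fit.Glue

open Claimed.Agent.R322.Tube Claimed.Agent.R322.Freq

variable {m n Q : ℕ} {W : SIV m n} {u : E m → E n} {hc eg : ℝ}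

/-! ### nearest points -/

theorem norm_le_prH_add_prV (X : E (m + n)) : ‖X‖ ≤ ‖prH m n X‖ + ‖prV m n X‖ := by
  have h := norm_sq_eq_prH_prV X
  have h1 := norm_nonneg (prH m n X)
  have h2 := norm_nonneg (prV m n X)
  nlinarith [norm_nonneg X]

theorem prH_Fg (u : E m → E n) (y : E m) : prH m n (Fg u y) = y := prH_mkHV _ _

theorem prV_Fg (u : E m → E n) (y : E m) : prV m n (Fg u y) = u y := prV_mkHV _ _

theorem norm_sub_Fg_prH (u : E m → E n) (X : E (m + n)) :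
    ‖X - Fg u (prH m n X)‖ = ‖prV m n X - u (prH m n X)‖ := by
  have h := norm_sq_eq_prH_prV (X - Fg u (prH m n X))
  rw [map_sub, map_sub, prH_Fg, prV_Fg, sub_self, norm_zero] at h
  have h1 := norm_nonneg (X - Fg u (prH m n X))
  have h2 := norm_nonneg (prV m n X - u (prH m n X))
  nlinarith

theorem norm_zz_le (hu : Continuous u) (X : E (m + n)) : ‖zz u X‖ ≤ ‖prV m n X - u (prH m n X)‖ := by
  rw [← norm_sub_Fg_prH]
  exact npr_isMin u hu X _

theorem norm_npr_sub_le (u : E m → E n) (X : E (m + n)) : ‖npr u X - prH m n X‖ ≤ ‖zz u X‖ := by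
  have h : prH m n (zz u X) = prH m n X - npr u X := by
    unfold zz
    rw [map_sub, prH_Fg]
  rw [norm_sub_rev, ← h]
  exact norm_prH_le _

theorem isOpen_Wk (m n : ℕ) : IsOpen (Wk m n) :=
  (isOpen_lt (prH m n).continuous.norm continuous_const).inter
    (isOpen_lt (prV m n).continuous.norm continuous_const)

/-! ### Part 1 -/

/-- standing assumptions of Part 1 -/
structure CylIn (W : SIV m n) (Q : ℕ) (u : E m → E n) (hc eg : ℝ) : Prop where
  good : IsGood W Q eg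
  geo : Geo 1 u
  hc_pos : 0 < hc
  hc_le : hc ≤ 1 / 10
  eg_le : eg ≤ hc / 8
  u_le : ∀ y, ‖u y‖ ≤ hc / 8

namespace CylIn

theorem cont (G : CylIn W Q u hc eg) : Continuous u := G.geo.smooth.continuous

theorem vert_le (G : CylIn W Q u hc eg) {X : E (m + n)} (hX : X ∈ W.support) (hX1 : ‖X‖ ≤ 1000) :
    ‖prV m n X - u (prH m n X)‖ ≤ hc / 4 := by
  have h1 := G.good.height X hX hX1
  have h2 := G.u_le (prH m n X)
  have h3 := norm_sub_le (prV m n X) (u (prH m n X))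
  linarith [G.eg_le]

theorem mem_cyl (G : CylIn W Q u hc eg) {X : E (m + n)} (hX : X ∈ W.support) (hX1 : ‖X‖ ≤ 1000)
    (hXh : ‖prH m n X‖ < 7 / 2) : X ∈ Cyl u (Metric.ball 0 4) hc := by
  have h1 := (norm_zz_le G.cont X).trans (G.vert_le hX hX1)
  have h2 := norm_npr_sub_le u X
  have h3 : ‖npr u X‖ ≤ ‖npr u X - prH m n X‖ + ‖prH m n X‖ := by
    have := norm_add_le (npr u X - prH m n X) (prH m n X)
    rwa [sub_add_cancel] at this
  have := G.hc_pos
  have := G.hc_le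
  refine ⟨?_, by linarith⟩
  rw [Metric.mem_ball, dist_zero_right]
  linarith

theorem of_mem_cyl (G : CylIn W Q u hc eg) {X : E (m + n)} (hX : X ∈ Cyl u (Metric.ball 0 4) hc) :
    ‖prH m n X‖ < 41 / 10 ∧ ‖X‖ ≤ 6 := by
  obtain ⟨h1, h2⟩ := hX
  rw [Metric.mem_ball, dist_zero_right] at h1
  have h3 := norm_npr_sub_le u X
  have h4 : ‖prH m n X‖ ≤ ‖npr u X - prH m n X‖ + ‖npr u X‖ := by
    have := norm_sub_le (npr u X) (npr u X - prH m n X)
    rw [sub_sub_cancel] at this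
    linarith
  have h5 : ‖X‖ ≤ ‖zz u X‖ + ‖Fg u (npr u X)‖ := by
    have := norm_add_le (zz u X) (Fg u (npr u X))
    unfold zz at this ⊢
    rwa [sub_add_cancel] at this
  have h6 := norm_le_prH_add_prV (Fg u (npr u X))
  rw [prH_Fg, prV_Fg] at h6
  have h7 := G.u_le (npr u X)
  have := G.hc_pos
  have := G.hc_le
  constructor <;> linarith

theorem mem_Wk (G : CylIn W Q u hc eg) {X : E (m + n)} (hX : X ∈ W.support)
    (hXc : X ∈ Cyl u (Metric.ball 0 4) hc) : X ∈ Wk m n := by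
  obtain ⟨h1, h2⟩ := G.of_mem_cyl hXc
  have h3 := G.good.height X hX (by linarith)
  have := G.hc_le
  have := G.eg_le
  exact ⟨by linarith, by linarith⟩

theorem isOpen_cyl (G : CylIn W Q u hc eg) : IsOpen (Cyl u (Metric.ball 0 4) hc) :=
  cyla_isOpen G.geo Metric.isOpen_ball (G.hc_le.trans (by norm_num))

/-- the interior normal cylinder over the glued centre -/
noncomputable def mkN (G : CylIn W Q u hc eg) (hQ : 1 ≤ Q) : NCyl m n where
  W := W
  u := u
  Ω := Metric.ball 0 4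
  h := hc
  h' := hc / 2
  Q := Q
  isOpen_Ω := Metric.isOpen_ball
  h'_pos := by have := G.hc_pos; linarith
  h'_lt := by have := G.hc_pos; linarith
  Q_pos := hQ
  cyl_sub := fun X hX => G.good.dom (by
    rw [Metric.mem_closedBall, dist_zero_right]
    linarith [(G.of_mem_cyl hX).2])
  gap := fun X hX hXc => by
    have h1 := (norm_zz_le G.cont X).trans (G.vert_le hX (by linarith [(G.of_mem_cyl hXc).2]))
    have := G.hc_pos
    linarith

/-- upper mass bound in `B_10` at scales `≤ 1` (`upper_mass` with `R = 990`, `ratio_le_of_dist` with `δ = 10`, `IsGood.ratio`) -/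
theorem mass_ball (G : CylIn W Q u hc eg) (hm : 1 ≤ m) {p : E (m + n)} (hp : ‖p‖ ≤ 10) {r : ℝ} (hr : 0 < r) (hr1 : r ≤ 1) :
    W.μ (Metric.ball p r) ≤ ENNReal.ofReal ((Q + 1) * 2 ^ m * kap m * r ^ m) := by
  have hU0 : Metric.closedBall (0 : E (m + n)) (990 + 10) ⊆ W.U :=
    (Metric.closedBall_subset_closedBall (by norm_num)).trans G.good.dom
  have hU : Metric.closedBall p 990 ⊆ W.U := fun X hX => G.good.dom (by
    rw [Metric.mem_closedBall, dist_zero_right]
    rw [Metric.mem_closedBall, dist_eq_norm] at hX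
    have := norm_sub_norm_le X p
    linarith)
  have h1 := W.upper_mass hm hr (by linarith : r ≤ 990) hU
  have h2 : W.ratio p 990 ≤ (1 + 10 / 990) ^ m * W.ratio 0 (990 + 10) :=
    W.ratio_le_of_dist (by norm_num) (by rw [dist_zero_right]; exact hp) hU0
  have h3 := G.good.ratio
  have e : (990 : ℝ) + 10 = 1000 := by norm_num
  rw [e] at h2
  have h4 : (1 + 10 / 990 : ℝ) ^ m ≤ 2 ^ m := pow_le_pow_left₀ (by norm_num) (by norm_num) m
  have h5 : 0 ≤ W.ratio 0 1000 := W.ratio_nonneg 0 (by norm_num)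
  have h6 : W.ratio 0 1000 ≤ Q + 1 := by
    have := G.eg_le
    have := G.hc_le
    linarith
  have h7 : W.ratio p 990 ≤ (Q + 1) * 2 ^ m := by
    calc W.ratio p 990 ≤ (1 + 10 / 990) ^ m * W.ratio 0 1000 := h2
      _ ≤ 2 ^ m * (Q + 1) := mul_le_mul h4 h6 h5 (by positivity)
      _ = (Q + 1) * 2 ^ m := mul_comm _ _
  refine h1.trans (ENNReal.ofReal_le_ofReal ?_)
  have hk := kap_pos m
  have h8 : 0 ≤ kap m * r ^ m := by positivity
  calc W.ratio p 990 * (kap m * r ^ m) ≤ (Q + 1) * 2 ^ m * (kap m * r ^ m) := mul_le_mul_of_nonneg_right h7 h8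
    _ = (Q + 1) * 2 ^ m * kap m * r ^ m := by ring

/-- the normal cylinder and the flat working region carry the same mass over `B_{7/2}` -/
theorem restrict_eq (G : CylIn W Q u hc eg) {g : E (m + n) → ℝ} (hg : ∀ X, 7 / 2 ≤ ‖prH m n X‖ → g X = 0) :
    ∫ X in Cyl u (Metric.ball 0 4) hc, g X ∂W.μ = ∫ X in Wk m n, g X ∂W.μ := by
  rw [← integral_indicator G.isOpen_cyl.measurableSet, ← integral_indicator (isOpen_Wk m n).measurableSet]
  refine integral_congr_ae ?_
  have h1 : ∀ᵐ X ∂W.μ, X ∈ W.support := mem_ae_iff.2 W.μ_compl_support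
  filter_upwards [h1] with X hX
  by_cases hXh : 7 / 2 ≤ ‖prH m n X‖
  · simp [Set.indicator, hg X hXh]
  · push Not at hXh
    have h2 : X ∈ Cyl u (Metric.ball 0 4) hc ↔ X ∈ Wk m n :=
      ⟨G.mem_Wk hX, fun h => G.mem_cyl hX (by
        have := norm_le_prH_add_prV X
        have := h.2
        linarith) hXh⟩
    by_cases h3 : X ∈ Wk m n
    · rw [Set.indicator_of_mem h3, Set.indicator_of_mem (h2.2 h3)]
    · rw [Set.indicator_of_notMem h3, Set.indicator_of_notMem (fun h => h3 (h2.1 h))]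

/-- continuous functions with bounded base support are integrable over the working region -/
theorem integrableOn_Wk (G : CylIn W Q u hc eg) {g : E (m + n) → ℝ} (hgc : Continuous g)
    (hg : ∀ X, 7 / 2 ≤ ‖prH m n X‖ → g X = 0) : IntegrableOn g (Wk m n) W.μ := by
  have hK : IsCompact (Metric.closedBall (0 : E (m + n)) 5) := isCompact_closedBall _ _
  obtain ⟨B, hB⟩ := hK.exists_bound_of_continuousOn hgc.continuousOn
  have hfin : W.μ (Metric.closedBall (0 : E (m + n)) 5) < ⊤ :=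
    W.μ_compact_lt_top hK ((Metric.closedBall_subset_closedBall (by norm_num)).trans G.good.dom)
  have h1 : IntegrableOn g (Metric.closedBall (0 : E (m + n)) 5) W.μ :=
    Measure.integrableOn_of_bounded (M := B) hfin.ne hgc.aestronglyMeasurable
      (ae_restrict_of_forall_mem measurableSet_closedBall hB)
  refine h1.of_forall_sdiff_eq_zero (isOpen_Wk m n).measurableSet ?_
  rintro X ⟨hXW, hXK⟩
  apply hg
  by_contra h
  push Not at h
  apply hXK
  rw [Metric.mem_closedBall, dist_zero_right]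
  have := norm_le_prH_add_prV X
  have := hXW.2
  linarith

end CylIn

/-! ### Part 2 -/

variable {c : FitCst} {m₀ C : ℝ} {F : FitFam W Q c m₀}

/-- standing assumptions of Part 2 -/
structure GlOK (F : FitFam W Q c m₀) (C : ℝ) (u : E m → E n) (hc eg : ℝ) : Prop where
  adm : c.Adm m
  C_ge : 1 ≤ C
  m₀_pos : 0 < m₀
  cen : Center F C u
  cyl : CylIn W Q u hc eg
  ℓ_le : ∀ x, F.ℓ x ≤ 1 / 32
  small : (1 + C) * 32 ^ c.k * m₀ ≤ 1 / 100

/-- the constant of the first-moment estimate -/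
noncomputable def Cmom (m Q : ℕ) (c : FitCst) (C : ℝ) : ℝ :=
  c.C * 32 ^ c.q * 32 ^ (m + 2 * c.k - 1) + C * 32 ^ (2 * c.k - 1) * ((Q + 1) * 2 ^ m * kap m * 3 ^ m)

namespace GlOK

theorem one_le_cst (G : GlOK F C u hc eg) : 1 ≤ (1 + C) * 32 ^ c.k := by
  have h1 : (1 : ℝ) ≤ 32 ^ c.k := one_le_pow₀ (by norm_num)
  have h2 := G.C_ge
  nlinarith

theorem m₀_le (G : GlOK F C u hc eg) : m₀ ≤ 1 := by
  have h1 := G.one_le_cst
  have h2 := G.small
  have h3 := G.m₀_pos
  nlinarith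

theorem cst16_le (G : GlOK F C u hc eg) : (1 + C) * 16 ^ c.k * m₀ ≤ 1 / 100 := by
  refine le_trans ?_ G.small
  have h1 : (16 : ℝ) ^ c.k ≤ 32 ^ c.k := pow_le_pow_left₀ (by norm_num) (by norm_num) _
  have h2 := G.C_ge
  have h3 := G.m₀_pos
  have h4 : (1 + C) * 16 ^ c.k ≤ (1 + C) * 32 ^ c.k := mul_le_mul_of_nonneg_left h1 (by linarith)
  exact mul_le_mul_of_nonneg_right h4 h3.le

theorem k_pos (G : GlOK F C u hc eg) : c.k ≠ 0 := by
  have := G.adm.k_gt
  omega

theorem tent_le (G : GlOK F C u hc eg) (w : E m) : tent F.ℓ w ≤ 1 / 32 :=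
  tent_le_of_ℓ F (by norm_num) G.ℓ_le w

/-- CO (4.4), vertical height -/
theorem height_v (G : GlOK F C u hc eg) {X : E (m + n)} (hX : X ∈ W.support)
    (hXc : X ∈ Cyl u (Metric.ball 0 4) hc) :
    ‖prV m n X - u (prH m n X)‖ ≤ (1 + C) * 16 ^ c.k * m₀ * tent F.ℓ (prH m n X) ^ c.k :=
  center_height G.adm G.C_ge G.m₀_pos G.m₀_le F G.cen G.ℓ_le hX (G.cyl.mem_Wk hX hXc)
    (by linarith [(G.cyl.of_mem_cyl hXc).1])

/-- CO (4.4), normal height, horizontal argument -/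
theorem height_h (G : GlOK F C u hc eg) {X : E (m + n)} (hX : X ∈ W.support)
    (hXc : X ∈ Cyl u (Metric.ball 0 4) hc) :
    ‖zz u X‖ ≤ (1 + C) * 16 ^ c.k * m₀ * tent F.ℓ (prH m n X) ^ c.k :=
  (norm_zz_le G.cyl.cont X).trans (G.height_v hX hXc)

/-- CO (4.4), normal height, projected argument: `t_h ≤ t_p + |zz| ≤ t_p + t_h / 2` -/
theorem height_p (G : GlOK F C u hc eg) {X : E (m + n)} (hX : X ∈ W.support)
    (hXc : X ∈ Cyl u (Metric.ball 0 4) hc) :
    ‖zz u X‖ ≤ (1 + C) * 32 ^ c.k * m₀ * tent F.ℓ (npr u X) ^ c.k := by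
  have hF := isFail_ℓ F
  have h1 := G.height_h hX hXc
  have h2 := tent_nonneg hF (prH m n X)
  have h3 := G.tent_le (prH m n X)
  have h4 : tent F.ℓ (prH m n X) ^ c.k ≤ tent F.ℓ (prH m n X) := pow_le_of_le_one h2 (by linarith) G.k_pos
  have h5 := G.cst16_le
  have h5' : 0 ≤ (1 + C) * 16 ^ c.k * m₀ := by
    have := G.C_ge
    have := G.m₀_pos
    positivity
  have h6 : ‖zz u X‖ ≤ tent F.ℓ (prH m n X) / 2 := by
    have : (1 + C) * 16 ^ c.k * m₀ * tent F.ℓ (prH m n X) ^ c.k ≤ 1 / 100 * tent F.ℓ (prH m n X) :=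
      mul_le_mul h5 h4 (by positivity) (by norm_num)
    linarith
  have h7 := tent_le_tent_add hF (prH m n X) (npr u X)
  have h8 := norm_npr_sub_le u X
  rw [norm_sub_rev] at h8
  have h9 : tent F.ℓ (prH m n X) ≤ 2 * tent F.ℓ (npr u X) := by linarith
  have h10 : tent F.ℓ (prH m n X) ^ c.k ≤ (2 * tent F.ℓ (npr u X)) ^ c.k := pow_le_pow_left₀ h2 h9 _
  calc ‖zz u X‖ ≤ (1 + C) * 16 ^ c.k * m₀ * tent F.ℓ (prH m n X) ^ c.k := h1
    _ ≤ (1 + C) * 16 ^ c.k * m₀ * (2 * tent F.ℓ (npr u X)) ^ c.k := mul_le_mul_of_nonneg_left h10 h5'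
    _ = (1 + C) * 32 ^ c.k * m₀ * tent F.ℓ (npr u X) ^ c.k := by
      have : (32 : ℝ) ^ c.k = 16 ^ c.k * 2 ^ c.k := by rw [← mul_pow]; norm_num
      rw [mul_pow, this]
      ring

/-- mass of one cell: the support over `ball y₀ t₀` lies in `ball (F y₀) (3 t₀)` -/
theorem mass_cell (G : GlOK F C u hc eg) (hm : 1 ≤ m) {y₀ : E m} (hy₀ : ‖y₀‖ < 3) (ht : 0 < tent F.ℓ y₀) :
    W.μ (Wk m n ∩ {X | ‖prH m n X - y₀‖ < tent F.ℓ y₀}) ≤
      ENNReal.ofReal ((Q + 1) * 2 ^ m * kap m * (3 * tent F.ℓ y₀) ^ m) := by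
  have hF := isFail_ℓ F
  have ht1 := G.tent_le y₀
  have hp : ‖Fg u y₀‖ ≤ 10 := by
    have h6 := norm_le_prH_add_prV (Fg u y₀)
    rw [prH_Fg, prV_Fg] at h6
    have h7 := G.cyl.u_le y₀
    have := G.cyl.hc_le
    linarith
  refine le_trans ?_ (G.cyl.mass_ball hm hp (r := 3 * tent F.ℓ y₀) (by positivity) (by linarith))
  have hsub : Wk m n ∩ {X | ‖prH m n X - y₀‖ < tent F.ℓ y₀} ⊆ Metric.ball (Fg u y₀) (3 * tent F.ℓ y₀) ∪ W.supportᶜ := by
    rintro X ⟨hXW, hXy⟩
    by_cases hX : X ∈ W.support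
    swap
    · exact Or.inr hX
    left
    have hXy : ‖prH m n X - y₀‖ < tent F.ℓ y₀ := hXy
    have h4 : ‖prH m n X‖ ≤ ‖prH m n X - y₀‖ + ‖y₀‖ := by
      have := norm_add_le (prH m n X - y₀) y₀
      rwa [sub_add_cancel] at this
    have h5 := norm_le_prH_add_prV X
    have hXc : X ∈ Cyl u (Metric.ball 0 4) hc := G.cyl.mem_cyl hX (by linarith [hXW.2]) (by linarith)
    have h1 := G.height_v hX hXc
    have h2 := tent_nonneg hF (prH m n X)
    have h3 := G.tent_le (prH m n X)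
    have h6 : tent F.ℓ (prH m n X) ^ c.k ≤ tent F.ℓ (prH m n X) := pow_le_of_le_one h2 (by linarith) G.k_pos
    have h7 := tent_le_tent_add hF (prH m n X) y₀
    have h8 : (1 + C) * 16 ^ c.k * m₀ * tent F.ℓ (prH m n X) ^ c.k ≤ 1 / 100 * tent F.ℓ (prH m n X) :=
      mul_le_mul G.cst16_le h6 (by positivity) (by norm_num)
    have h9 : ‖u (prH m n X) - u y₀‖ ≤ 1 / 2 * ‖prH m n X - y₀‖ :=
      Convex.norm_image_sub_le_of_norm_fderiv_le (s := Set.univ)
        (fun y _ => (G.cyl.geo.smooth.differentiable (by norm_num)).differentiableAt) (fun y _ => G.cyl.geo.slope y)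
        convex_univ (Set.mem_univ _) (Set.mem_univ _)
    have h10 := norm_le_prH_add_prV (X - Fg u y₀)
    rw [map_sub, map_sub, prH_Fg, prV_Fg] at h10
    have h11 : ‖prV m n X - u y₀‖ ≤ ‖prV m n X - u (prH m n X)‖ + ‖u (prH m n X) - u y₀‖ := by
      have := norm_add_le (prV m n X - u (prH m n X)) (u (prH m n X) - u y₀)
      rwa [sub_add_sub_cancel] at this
    rw [Metric.mem_ball, dist_eq_norm]
    linarith
  refine (measure_mono hsub).trans ((measure_union_le _ _).trans ?_)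
  rw [W.μ_compl_support, add_zero]

/-- cell-wise first height moment over the glued centre.
PLAN.  `t₀ = tent F.ℓ y₀ ≤ 1/32`; `16 t₀ ≤ sc j < 32 t₀` (`exists_sc`); the fit `f = F.f y₀ j` is accepted (`acc_of_Tsc`, `Tsc_eq`).  `CylIn.restrict_eq`;
`⟨X_v - u, η⟩ = ⟨X_v - f, η⟩ + ⟨f - u, η⟩` (`CylIn.integrableOn_Wk`, `integral_add`); first term: `F.moment` with `32^q A`; second term: `Center.comp` (`x = y₀`, `i = 0`),
`|η| ≤ A`, `mass_cell`. -/
theorem moment (G : GlOK F C u hc eg) (hm : 1 ≤ m) {y₀ : E m} (hy₀ : ‖y₀‖ < 3) (ht : 0 < tent F.ℓ y₀) (η : E m → E n) (A : ℝ)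
    (hη : ContDiff ℝ ∞ η) (hsupp : tsupport η ⊆ Metric.ball y₀ (1 / 100 * tent F.ℓ y₀))
    (hA : ∀ j : ℕ, j ≤ c.q → ∀ y, tent F.ℓ y₀ ^ j * ‖iteratedFDeriv ℝ j η y‖ ≤ A) :
    |∫ X in Cyl u (Metric.ball 0 4) hc, inner ℝ (prV m n X - u (prH m n X)) (η (prH m n X)) ∂W.μ|
      ≤ Cmom m Q c C * A * m₀ ^ 2 * tent F.ℓ y₀ ^ (m + 2 * c.k - 1) := by
  have hF := isFail_ℓ F
  have hmass := G.mass_cell hm hy₀ ht
  set t₀ := tent F.ℓ y₀ with ht₀
  have ht1 : t₀ ≤ 1 / 32 := G.tent_le y₀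
  obtain ⟨j, hj1, hj2⟩ := exists_sc (s := 16 * t₀) (by positivity) (by linarith)
  have hsc := sc_pos j
  have hacc := acc_of_Tsc F (x := y₀) (j := j) (by rw [Tsc_eq hF (by linarith)]; linarith)
  set f := F.f y₀ j with hf
  have hfc : Continuous f := (F.smooth y₀ j hacc.1 hacc.2.le).continuous
  have huc := G.cyl.cont
  have hηc : Continuous η := hη.continuous
  have hηA : ∀ y, ‖η y‖ ≤ A := by
    intro y
    have := hA 0 (Nat.zero_le _) y
    rwa [pow_zero, one_mul, norm_iteratedFDeriv_zero] at this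
  have hA0 : 0 ≤ A := (norm_nonneg _).trans (hηA y₀)
  have hm₀ := G.m₀_pos
  have hC := G.C_ge
  have hcC := G.adm.C_ge
  have hη0 : ∀ y, t₀ / 100 ≤ ‖y - y₀‖ → η y = 0 := by
    intro y hy
    apply image_eq_zero_of_notMem_tsupport
    intro hmem
    have := hsupp hmem
    rw [Metric.mem_ball, dist_eq_norm] at this
    linarith
  have hη1 : ∀ X : E (m + n), 7 / 2 ≤ ‖prH m n X‖ → η (prH m n X) = 0 := by
    intro X hX
    apply hη0
    have := norm_sub_norm_le (prH m n X) y₀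
    linarith
  let g₁ : E (m + n) → ℝ := fun X => inner ℝ (prV m n X - f (prH m n X)) (η (prH m n X))
  let g₂ : E (m + n) → ℝ := fun X => inner ℝ (f (prH m n X) - u (prH m n X)) (η (prH m n X))
  have hg₁c : Continuous g₁ :=
    ((prV m n).continuous.sub (hfc.comp (prH m n).continuous)).inner (hηc.comp (prH m n).continuous)
  have hg₂c : Continuous g₂ :=
    ((hfc.comp (prH m n).continuous).sub (huc.comp (prH m n).continuous)).inner (hηc.comp (prH m n).continuous)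
  have hg₁0 : ∀ X, 7 / 2 ≤ ‖prH m n X‖ → g₁ X = 0 := fun X hX => by
    simp only [g₁, hη1 X hX, inner_zero_right]
  have hg₂0 : ∀ X, 7 / 2 ≤ ‖prH m n X‖ → g₂ X = 0 := fun X hX => by
    simp only [g₂, hη1 X hX, inner_zero_right]
  have e : (fun X => inner ℝ (prV m n X - u (prH m n X)) (η (prH m n X))) = fun X => g₁ X + g₂ X := by
    funext X
    simp only [g₁, g₂]
    rw [← inner_add_left]
    congr 1
    abel
  rw [G.cyl.restrict_eq (g := fun X => inner ℝ (prV m n X - u (prH m n X)) (η (prH m n X)))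
    (fun X hX => by simp only [hη1 X hX, inner_zero_right]), e,
    integral_add (G.cyl.integrableOn_Wk hg₁c hg₁0) (G.cyl.integrableOn_Wk hg₂c hg₂0)]
  have hscle : ∀ e : ℕ, sc j ^ e ≤ 32 ^ e * t₀ ^ e := by
    intro e
    rw [← mul_pow]
    exact pow_le_pow_left₀ hsc.le (by linarith) _
  -- first term
  have hb1 : |∫ X in Wk m n, g₁ X ∂W.μ| ≤ c.C * (32 ^ c.q * A) * m₀ ^ 2 * sc j ^ (m + 2 * c.k - 1) := by
    refine F.moment y₀ j hacc.1 hacc.2.le η (32 ^ c.q * A) hη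
      (hsupp.trans (Metric.ball_subset_ball (by linarith))) (fun i hi y => ?_)
    have h1 := hA i hi y
    have h2 : (32 : ℝ) ^ i ≤ 32 ^ c.q := pow_le_pow_right₀ (by norm_num) hi
    calc sc j ^ i * ‖iteratedFDeriv ℝ i η y‖ ≤ 32 ^ i * t₀ ^ i * ‖iteratedFDeriv ℝ i η y‖ :=
          mul_le_mul_of_nonneg_right (hscle i) (norm_nonneg _)
      _ = 32 ^ i * (t₀ ^ i * ‖iteratedFDeriv ℝ i η y‖) := by ring
      _ ≤ 32 ^ c.q * A := mul_le_mul h2 h1 (by positivity) (by positivity)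
  -- second term
  have hg₂b : ∀ X, ‖g₂ X‖ ≤ C * m₀ ^ 2 * sc j ^ (2 * c.k - 1) * A := by
    intro X
    by_cases hX : t₀ / 100 ≤ ‖prH m n X - y₀‖
    · simp only [g₂, hη0 _ hX, inner_zero_right, norm_zero]
      positivity
    · push Not at hX
      have h4 : ‖prH m n X‖ ≤ ‖prH m n X - y₀‖ + ‖y₀‖ := by
        have := norm_add_le (prH m n X - y₀) y₀
        rwa [sub_add_cancel] at this
      have h7 := tent_le_tent_add hF (prH m n X) y₀
      have h1 := G.cen.comp (prH m n X) y₀ j (by linarith) (by linarith)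
        (by rw [norm_sub_rev]; linarith) 0 (Nat.zero_le _)
      rw [norm_iteratedFDeriv_zero, Pi.sub_apply, norm_sub_rev, Nat.sub_zero] at h1
      calc ‖g₂ X‖ ≤ ‖f (prH m n X) - u (prH m n X)‖ * ‖η (prH m n X)‖ := norm_inner_le_norm _ _
        _ ≤ C * m₀ ^ 2 * sc j ^ (2 * c.k - 1) * A := mul_le_mul h1 (hηA _) (norm_nonneg _) (by positivity)
  have hSm : MeasurableSet (Wk m n) := (isOpen_Wk m n).measurableSet
  have hb2 : |∫ X in Wk m n, g₂ X ∂W.μ| ≤
      C * m₀ ^ 2 * sc j ^ (2 * c.k - 1) * A * ((Q + 1) * 2 ^ m * kap m * (3 * t₀) ^ m) := by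
    rw [setIntegral_eq_of_subset_of_forall_sdiff_eq_zero hSm
      (Set.inter_subset_left : Wk m n ∩ {X | ‖prH m n X - y₀‖ < t₀} ⊆ Wk m n) (fun X hX => by
        have h1 : ¬ ‖prH m n X - y₀‖ < t₀ := fun h => hX.2 ⟨hX.1, h⟩
        push Not at h1
        simp only [g₂, hη0 _ (by linarith : t₀ / 100 ≤ ‖prH m n X - y₀‖), inner_zero_right])]
    have hk := kap_pos m
    have h1 := norm_setIntegral_le_of_norm_le_const (μ := W.μ) (f := g₂)
      (s := Wk m n ∩ {X | ‖prH m n X - y₀‖ < t₀}) (lt_of_le_of_lt hmass ENNReal.ofReal_lt_top) (fun X _ => hg₂b X)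
    rw [Real.norm_eq_abs] at h1
    refine h1.trans (mul_le_mul_of_nonneg_left ?_ (by positivity))
    exact ENNReal.toReal_le_of_le_ofReal (by positivity) hmass
  have hk := kap_pos m
  have hk1 : 1 ≤ c.k := Nat.one_le_iff_ne_zero.2 G.k_pos
  have e2 : t₀ ^ (2 * c.k - 1) * t₀ ^ m = t₀ ^ (m + 2 * c.k - 1) := by
    rw [← pow_add]
    congr 1
    omega
  calc |∫ X in Wk m n, g₁ X ∂W.μ + ∫ X in Wk m n, g₂ X ∂W.μ|
      ≤ |∫ X in Wk m n, g₁ X ∂W.μ| + |∫ X in Wk m n, g₂ X ∂W.μ| := abs_add_le _ _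
    _ ≤ c.C * (32 ^ c.q * A) * m₀ ^ 2 * sc j ^ (m + 2 * c.k - 1) +
        C * m₀ ^ 2 * sc j ^ (2 * c.k - 1) * A * ((Q + 1) * 2 ^ m * kap m * (3 * t₀) ^ m) := add_le_add hb1 hb2
    _ ≤ c.C * (32 ^ c.q * A) * m₀ ^ 2 * (32 ^ (m + 2 * c.k - 1) * t₀ ^ (m + 2 * c.k - 1)) +
        C * m₀ ^ 2 * (32 ^ (2 * c.k - 1) * t₀ ^ (2 * c.k - 1)) * A * ((Q + 1) * 2 ^ m * kap m * (3 * t₀) ^ m) := by
      refine add_le_add (mul_le_mul_of_nonneg_left (hscle _) (by positivity)) ?_
      refine mul_le_mul_of_nonneg_right (mul_le_mul_of_nonneg_right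
        (mul_le_mul_of_nonneg_left (hscle _) (by positivity)) hA0) (by positivity)
    _ = Cmom m Q c C * A * m₀ ^ 2 * t₀ ^ (m + 2 * c.k - 1) := by
      unfold Cmom
      rw [← e2, mul_pow]
      ring

end GlOK

end Claimed.Agent.R322.Fit.Glue
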